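import Mathlib

namespace Vale.Agent.P262

/-- The real sign `+1` or `-1` coded by a Boolean. -/
def sgn (b : Bool) : ℝ := if b then 1 else -1

/-- The signed sum of the first `k` vectors of the sequence `v` for the signing `s`. -/
noncomputable def psum {d N : ℕ} (v : Fin N → EuclideanSpace ℝ (Fin d)) (s : Fin N → Bool)
    (k : ℕ) : EuclideanSpace ℝ (Fin d) :=
  ∑ i : Fin N, if i.val < k then sgn (s i) • v i else 0

/-- `sigma d`: supremum over all finite sequences in the Euclidean unit ball of `ℝ^d` of the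
minimum over signings of the maximum over `0 ≤ k ≤ N` of the norm of the `k`-th signed sum. -/
noncomputable def sigma (d : ℕ) : ENNReal :=
  ⨆ (N : ℕ) (v : Fin N → EuclideanSpace ℝ (Fin d)) (_ : ∀ i, ‖v i‖ ≤ 1),
    ⨅ s : Fin N → Bool, ⨆ k : Fin (N + 1), ENNReal.ofReal ‖psum v s k.val‖

end Vale.Agent.P262
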