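import Vale.Agent.P262.Defs

open scoped RealInnerProductSpace

namespace Vale.Agent.P262

section abstract

variable {E : Type*} [NormedAddCommGroup E] [InnerProductSpace ℝ E]

/-- signed sum of the first `k` terms of an infinite sequence -/
noncomputable def nsum (g : ℕ → E) (s : ℕ → Bool) (k : ℕ) : E :=
  ∑ i ∈ Finset.range k, sgn (s i) • g i

/-- put a vector in front of a sequence -/
def cons (v : E) (g : ℕ → E) : ℕ → E
  | 0 => v
  | (i + 1) => g i

lemma nsum_zero (g : ℕ → E) (s : ℕ → Bool) : nsum g s 0 = 0 := by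
  simp [nsum]

lemma nsum_cons (v : E) (g : ℕ → E) (s : ℕ → Bool) (k : ℕ) :
    nsum (cons v g) s (k + 1) = sgn (s 0) • v + nsum g (fun i => s (i + 1)) k := by
  unfold nsum
  rw [Finset.sum_range_succ']
  simp [cons, add_comm]

lemma nsum_not (g : ℕ → E) (s : ℕ → Bool) (k : ℕ) :
    nsum g (fun i => !(s i)) k = - nsum g s k := by
  unfold nsum
  rw [← Finset.sum_neg_distrib]
  refine Finset.sum_congr rfl (fun i _ => ?_)
  cases h : s i <;> simp [sgn, h]

/-- every signing of `g` has one of the first `N` signed sums of square norm at least `T` -/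
def Forces (T : ℝ) (g : ℕ → E) (N : ℕ) : Prop :=
  ∀ s : ℕ → Bool, ∃ k, k ≤ N ∧ T ≤ ‖nsum g s k‖ ^ 2

lemma inner_nsum_eq_zero (e : E) (g : ℕ → E) (h : ∀ i, ⟪e, g i⟫ = 0) (s : ℕ → Bool) (k : ℕ) :
    ⟪e, nsum g s k⟫ = 0 := by
  unfold nsum
  rw [inner_sum]
  refine Finset.sum_eq_zero (fun i _ => ?_)
  rw [inner_smul_right, h i, mul_zero]

lemma sgn_sq (b : Bool) : sgn b ^ 2 = 1 := by
  cases b <;> simp [sgn]

lemma abs_sgn (b : Bool) : |sgn b| = 1 := by
  cases b <;> simp [sgn]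

lemma forces_cons {T : ℝ} {g : ℕ → E} {N : ℕ} (hF : Forces T g N) (e : E) (he : ‖e‖ = 1)
    (h : ∀ i, ⟪e, g i⟫ = 0) : Forces (T + 1) (cons e g) (N + 1) := by
  intro s
  obtain ⟨k, hk, hT⟩ := hF (fun i => s (i + 1))
  refine ⟨k + 1, by omega, ?_⟩
  rw [nsum_cons, norm_add_sq_real, inner_smul_left, inner_nsum_eq_zero e g h, norm_smul]
  simp only [Real.norm_eq_abs, abs_sgn, he]
  simp
  linarith

/-- in the plane spanned by an orthonormal pair one can prescribe the inner product with a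
given vector -/
lemma exists_unit_inner (e0 e1 : E) (h00 : ⟪e0, e0⟫ = 1) (h11 : ⟪e1, e1⟫ = 1)
    (h01 : ⟪e0, e1⟫ = 0) (S : E) (hS : S ∈ Submodule.span ℝ {e0, e1}) (c : ℝ)
    (hpos : 0 < ‖S‖) (hc : c ^ 2 ≤ ‖S‖ ^ 2) :
    ∃ v ∈ Submodule.span ℝ {e0, e1}, ‖v‖ = 1 ∧ ⟪S, v⟫ = c := by
  obtain ⟨x, y, rfl⟩ := Submodule.mem_span_pair.1 hS
  have h10 : ⟪e1, e0⟫ = 0 := by rw [real_inner_comm]; exact h01
  have hin : ∀ a b a' b' : ℝ, ⟪a • e0 + b • e1, a' • e0 + b' • e1⟫ = a * a' + b * b' := by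
    intro a b a' b'
    simp only [inner_add_left, inner_add_right, inner_smul_left, inner_smul_right, h00, h11,
      h01, h10]
    simp
    ring
  have hn : ‖x • e0 + y • e1‖ ^ 2 = x ^ 2 + y ^ 2 := by
    rw [← real_inner_self_eq_norm_sq, hin]
    ring
  obtain ⟨r2, hr2⟩ : ∃ r2 : ℝ, r2 = x ^ 2 + y ^ 2 := ⟨_, rfl⟩
  have hr2pos : 0 < r2 := by rw [hr2, ← hn]; positivity
  rw [hn, ← hr2] at hc
  obtain ⟨u, hu⟩ : ∃ u : ℝ, u * r2 = c := ⟨c / r2, by field_simp⟩
  have hcu : c * u ≤ 1 := by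
    have : c * u * r2 ≤ 1 * r2 := by
      have : c * u * r2 = c ^ 2 := by rw [mul_assoc, hu]; ring
      linarith
    exact le_of_mul_le_mul_right this hr2pos
  obtain ⟨t, ht⟩ : ∃ t : ℝ, t ^ 2 * r2 = 1 - c * u := by
    refine ⟨Real.sqrt ((1 - c * u) / r2), ?_⟩
    rw [Real.sq_sqrt (div_nonneg (by linarith) hr2pos.le)]
    field_simp
  refine ⟨(u * x - t * y) • e0 + (u * y + t * x) • e1,
    Submodule.mem_span_pair.2 ⟨_, _, rfl⟩, ?_, ?_⟩
  · have h1 : ‖(u * x - t * y) • e0 + (u * y + t * x) • e1‖ ^ 2 = 1 := by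
      rw [← real_inner_self_eq_norm_sq, hin]
      linear_combination u * hu + ht - (u ^ 2 + t ^ 2) * hr2
    have h0 : 0 ≤ ‖(u * x - t * y) • e0 + (u * y + t * x) • e1‖ := norm_nonneg _
    nlinarith
  · rw [hin]
    linear_combination hu - u * hr2

/-- the one-live-branch gadget in the plane spanned by an orthonormal pair -/
lemma gadget (e0 e1 : E) (h00 : ⟪e0, e0⟫ = 1) (h11 : ⟪e1, e1⟫ = 1)
    (h01 : ⟪e0, e1⟫ = 0) (R2 : ℝ) (hR : R2 < 3) (n : ℕ) :
    ∀ S ∈ Submodule.span ℝ {e0, e1}, 1 ≤ ‖S‖ ^ 2 → R2 - n * (3 - R2) ≤ ‖S‖ ^ 2 →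
      ∃ (N : ℕ) (g : ℕ → E), (∀ i, g i ∈ Submodule.span ℝ {e0, e1} ∧ ‖g i‖ ≤ 1) ∧
        ∀ s : ℕ → Bool, ∃ k, k ≤ N ∧ R2 ≤ ‖S + nsum g s k‖ ^ 2 := by
  have base : ∀ S : E, R2 ≤ ‖S‖ ^ 2 →
      ∃ (N : ℕ) (g : ℕ → E), (∀ i, g i ∈ Submodule.span ℝ {e0, e1} ∧ ‖g i‖ ≤ 1) ∧
        ∀ s : ℕ → Bool, ∃ k, k ≤ N ∧ R2 ≤ ‖S + nsum g s k‖ ^ 2 := by
    intro S hS
    refine ⟨0, fun _ => 0, fun i => ⟨Submodule.zero_mem _, by simp⟩, fun s => ⟨0, le_refl _, ?_⟩⟩
    rw [nsum_zero, add_zero]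
    exact hS
  induction n with
  | zero =>
    intro S _ _ h
    apply base S
    simpa using h
  | succ n ih =>
    intro S hS h1 h
    by_cases hbig : R2 ≤ ‖S‖ ^ 2
    · exact base S hbig
    rw [not_le] at hbig
    have hpos : 0 < ‖S‖ := by
      by_contra hcon
      have : ‖S‖ = 0 := le_antisymm (not_lt.1 hcon) (norm_nonneg _)
      rw [this] at h1
      norm_num at h1
    obtain ⟨v, hv, hv1, hvc⟩ := exists_unit_inner e0 e1 h00 h11 h01 S hS
      ((R2 - ‖S‖ ^ 2 - 1) / 2) hpos (by nlinarith)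
    have hplus : ‖S + v‖ ^ 2 = R2 := by
      rw [norm_add_sq_real, hvc, hv1]
      ring
    have hminus : ‖S - v‖ ^ 2 = 2 * ‖S‖ ^ 2 + 2 - R2 := by
      rw [norm_sub_sq_real, hvc, hv1]
      ring
    obtain ⟨N, g, hg, hF⟩ := ih (S - v) (Submodule.sub_mem _ hS hv)
      (by rw [hminus]; linarith) (by
        rw [hminus]
        push_cast at h
        linarith)
    refine ⟨N + 1, cons v g, ?_, ?_⟩
    · intro i
      cases i with
      | zero => exact ⟨hv, hv1.le⟩
      | succ i => exact hg i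
    · intro s
      cases hs : s 0 with
      | true =>
        refine ⟨0 + 1, by omega, ?_⟩
        rw [nsum_cons, nsum_zero, hs]
        simp only [sgn, if_true, one_smul, add_zero]
        exact hplus.ge
      | false =>
        obtain ⟨k, hk, hT⟩ := hF (fun i => s (i + 1))
        refine ⟨k + 1, by omega, ?_⟩
        rw [nsum_cons, hs]
        have : S + (sgn false • v + nsum g (fun i => s (i + 1)) k)
            = S - v + nsum g (fun i => s (i + 1)) k := by
          simp only [sgn]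
          simp
          abel
        rw [this]
        exact hT

/-- planar statement: any square radius below `3` is forced -/
lemma planar (e0 e1 : E) (h00 : ⟪e0, e0⟫ = 1) (h11 : ⟪e1, e1⟫ = 1)
    (h01 : ⟪e0, e1⟫ = 0) (R2 : ℝ) (hR : R2 < 3) :
    ∃ (N : ℕ) (g : ℕ → E), (∀ i, g i ∈ Submodule.span ℝ {e0, e1} ∧ ‖g i‖ ≤ 1) ∧
      Forces R2 g N := by
  obtain ⟨n, hn⟩ := exists_nat_gt ((R2 - 1) / (3 - R2))
  have h3 : 0 < 3 - R2 := by linarith
  have hn' : R2 - 1 < n * (3 - R2) := by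
    rwa [div_lt_iff₀ h3] at hn
  have he0 : ‖e0‖ ^ 2 = 1 := by rw [← real_inner_self_eq_norm_sq, h00]
  have he0' : ‖e0‖ = 1 := by
    have := norm_nonneg e0
    nlinarith
  have hmem : e0 ∈ Submodule.span ℝ {e0, e1} := Submodule.subset_span (by simp)
  obtain ⟨N, g, hg, hF⟩ := gadget e0 e1 h00 h11 h01 R2 hR n e0 hmem he0.ge (by rw [he0]; linarith)
  refine ⟨N + 1, cons e0 g, ?_, ?_⟩
  · intro i
    cases i with
    | zero => exact ⟨hmem, he0'.le⟩
    | succ i => exact hg i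
  · intro s
    cases hs : s 0 with
    | true =>
      obtain ⟨k, hk, hT⟩ := hF (fun i => s (i + 1))
      refine ⟨k + 1, by omega, ?_⟩
      rw [nsum_cons, hs]
      simpa [sgn] using hT
    | false =>
      obtain ⟨k, hk, hT⟩ := hF (fun i => !(s (i + 1)))
      refine ⟨k + 1, by omega, ?_⟩
      rw [nsum_cons, hs]
      rw [nsum_not g (fun i => s (i + 1))] at hT
      have : sgn false • e0 + nsum g (fun i => s (i + 1)) k
          = - (e0 + - nsum g (fun i => s (i + 1)) k) := by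
        simp only [sgn]
        simp
        abel
      rw [this, norm_neg]
      exact hT

end abstract

/-- all dimensions: prepend the remaining basis vectors one at a time -/
lemma all_dims (d : ℕ) (hd : 2 ≤ d) (R2 : ℝ) (hR : R2 < 3) (m : ℕ) (hm : m + 2 ≤ d) :
    ∃ (N : ℕ) (g : ℕ → EuclideanSpace ℝ (Fin d)), (∀ i, ‖g i‖ ≤ 1) ∧
      (∀ i, ∀ j : Fin d, m + 2 ≤ j.val → g i j = 0) ∧ Forces (R2 + m) g N := by
  induction m with
  | zero =>
    have h0 : 0 < d := by omega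
    have h1 : 1 < d := by omega
    obtain ⟨N, g, hg, hF⟩ := planar (EuclideanSpace.single (⟨0, h0⟩ : Fin d) (1 : ℝ))
      (EuclideanSpace.single (⟨1, h1⟩ : Fin d) (1 : ℝ)) (by simp) (by simp)
      (by rw [EuclideanSpace.inner_single_left]; simp) R2 hR
    refine ⟨N, g, fun i => (hg i).2, ?_, by simpa using hF⟩
    intro i j hj
    obtain ⟨x, y, hxy⟩ := Submodule.mem_span_pair.1 (hg i).1
    rw [← hxy]
    have hj0 : j ≠ ⟨0, h0⟩ := by
      intro h
      rw [h] at hj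
      simp at hj
    have hj1 : j ≠ ⟨1, h1⟩ := by
      intro h
      rw [h] at hj
      simp at hj
    simp [hj0, hj1]
  | succ m ih =>
    obtain ⟨N, g, hg, hz, hF⟩ := ih (by omega)
    have hlt : m + 2 < d := by omega
    refine ⟨N + 1, cons (EuclideanSpace.single (⟨m + 2, hlt⟩ : Fin d) (1 : ℝ)) g, ?_, ?_, ?_⟩
    · intro i
      cases i with
      | zero => simp [cons]
      | succ i => exact hg i
    · intro i j hj
      cases i with
      | zero =>
        have hj0 : j ≠ ⟨m + 2, hlt⟩ := by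
          intro h
          rw [h] at hj
          simp at hj
        simp [cons, hj0]
      | succ i => exact hz i j (by omega)
    · have := forces_cons hF (EuclideanSpace.single (⟨m + 2, hlt⟩ : Fin d) (1 : ℝ)) (by simp)
        (by
          intro i
          rw [EuclideanSpace.inner_single_left]
          simp [hz i ⟨m + 2, hlt⟩ (le_refl _)])
      have e : R2 + ((m + 1 : ℕ) : ℝ) = R2 + m + 1 := by push_cast; ring
      rw [e]
      exact this

/-- from infinite sequences to the finite sequences of the definition -/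
lemma psum_eq_nsum {d N : ℕ} (g : ℕ → EuclideanSpace ℝ (Fin d)) (s : Fin N → Bool) (k : ℕ)
    (hk : k ≤ N) :
    psum (fun i : Fin N => g i.val) s k
      = nsum g (fun i => if h : i < N then s ⟨i, h⟩ else true) k := by
  unfold psum nsum
  have h1 : ∑ i : Fin N, (if i.val < k then sgn (s i) • g i.val else 0)
      = ∑ i : Fin N, (fun i : ℕ => if i < k then
          sgn (if h : i < N then s ⟨i, h⟩ else true) • g i else 0) i.val := by
    refine Finset.sum_congr rfl (fun i _ => ?_)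
    simp [i.isLt]
  rw [h1, ← Finset.sum_range (fun i : ℕ => if i < k then
          sgn (if h : i < N then s ⟨i, h⟩ else true) • g i else 0), ← Finset.sum_filter]
  congr 1
  ext i
  simp only [Finset.mem_filter, Finset.mem_range]
  omega

theorem lower_plain (d : ℕ) (hd : 2 ≤ d) (T : ℝ) (hT : T < d + 1) :
    ∃ (N : ℕ) (v : Fin N → EuclideanSpace ℝ (Fin d)), (∀ i, ‖v i‖ ≤ 1) ∧
      ∀ s : Fin N → Bool, ∃ k : Fin (N + 1), T ≤ ‖psum v s k.val‖ ^ 2 := by
  obtain ⟨m, rfl⟩ : ∃ m, d = m + 2 := ⟨d - 2, by omega⟩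
  obtain ⟨N, g, hg, -, hF⟩ := all_dims (m + 2) hd (T - m) (by push_cast at hT; linarith) m
    (le_refl _)
  refine ⟨N, fun i => g i.val, fun i => hg _, fun s => ?_⟩
  obtain ⟨k, hk, hk2⟩ := hF (fun i => if h : i < N then s ⟨i, h⟩ else true)
  refine ⟨⟨k, by omega⟩, ?_⟩
  rw [psum_eq_nsum g s k hk]
  linarith

theorem sqrt_le_sigma (d : ℕ) (hd : 2 ≤ d) :
    ENNReal.ofReal (Real.sqrt (d + 1)) ≤ sigma d := by
  apply le_of_forall_lt_imp_le_of_dense
  intro c hc
  have hctop : c ≠ ⊤ := ne_top_of_lt hc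
  obtain ⟨c', rfl⟩ : ∃ c' : NNReal, c = c' := ⟨c.toNNReal, (ENNReal.coe_toNNReal hctop).symm⟩
  have hc1 : (c' : ℝ) < Real.sqrt (d + 1) := by
    rw [← ENNReal.ofReal_coe_nnreal] at hc
    exact (ENNReal.ofReal_lt_ofReal_iff_of_nonneg c'.coe_nonneg).1 hc
  have hc2 : (c' : ℝ) ^ 2 < d + 1 := by
    have h0 : (0 : ℝ) ≤ d + 1 := by positivity
    have := Real.sq_sqrt h0
    have h3 := c'.coe_nonneg
    nlinarith
  obtain ⟨N, v, hv, hF⟩ := lower_plain d hd _ hc2
  unfold sigma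
  apply le_iSup_of_le N
  apply le_iSup_of_le v
  apply le_iSup_of_le hv
  apply le_iInf
  intro s
  obtain ⟨k, hk⟩ := hF s
  refine le_iSup_of_le k ?_
  rw [← ENNReal.ofReal_coe_nnreal]
  apply ENNReal.ofReal_le_ofReal
  exact abs_le_of_sq_le_sq' hk (norm_nonneg _) |>.2

end Vale.Agent.P262
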